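import Vale.Agent.P307.Ew.Tr
import Vale.Agent.P307.Gw.Code
import Vale.Agent.P307.Ow.Top

/-! The Hanf number for members with free bases at a categoricity cardinal. -/

universe u

open FirstOrder Cardinal Set Function Language

namespace Vale.Agent.P307.Ew

open H479.E
open Gw (upEquiv)

theorem isFree_of_part_eq {L : Language.{u, u}} {Λ : Type u} {K₁ K₂ : AEC L}
    (h : K₁.part Λ = K₂.part Λ) (hK₁ : K₁.IsLS #Λ) (hK₂ : K₂.IsLS #Λ) {M : Type u}
    [L.Structure M] (hB : IsFree K₁ M) : IsFree K₂ M := by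
  have h1 : (fun S : L.Substructure M => K₁.le S) = fun S : L.Substructure M => K₂.le S := by
    funext S
    exact propext ⟨Ow.le_of_part_eq' h hK₁, Ow.le_of_part_eq' h.symm hK₂⟩
  unfold IsFree at hB ⊢
  rwa [← h1]

section equiv

variable {L : Language.{u, u}} {K : AEC L} {M N : Type u} [L.Structure M] [L.Structure N]

theorem map_symm_map (i : M ≃[L] N) (S : L.Substructure M) :
    (S.map i.toHom).map i.symm.toHom = S := by
  ext x
  constructor
  · rintro ⟨_, ⟨y, hy, rfl⟩, rfl⟩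
    have h1 : i.symm (i y) = y := i.symm_apply_apply y
    change i.symm (i y) ∈ S
    rw [h1]
    exact hy
  · intro hx
    exact ⟨i x, ⟨x, hx, rfl⟩, i.symm_apply_apply x⟩

theorem map_map_symm (i : M ≃[L] N) (S : L.Substructure N) :
    (S.map i.symm.toHom).map i.toHom = S := by
  ext x
  constructor
  · rintro ⟨_, ⟨y, hy, rfl⟩, rfl⟩
    have h1 : i (i.symm y) = y := i.apply_symm_apply y
    change i (i.symm y) ∈ S
    rw [h1]
    exact hy
  · intro hx
    exact ⟨i.symm x, ⟨x, hx, rfl⟩, i.apply_symm_apply x⟩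

/-- The order isomorphism of the substructures along an isomorphism. -/
def mapIso (i : M ≃[L] N) : L.Substructure M ≃o L.Substructure N where
  toFun S := S.map i.toHom
  invFun S := S.map i.symm.toHom
  left_inv S := map_symm_map i S
  right_inv S := map_map_symm i S
  map_rel_iff' := by
    intro S T
    constructor
    · intro h1
      have h2 : S.map i.toHom ≤ T.map i.toHom := h1
      have h3 := Substructure.monotone_map (f := i.symm.toHom) h2
      rwa [map_symm_map, map_symm_map] at h3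
    · intro h1
      exact Substructure.monotone_map (f := i.toHom) h1

theorem isFree_of_equiv (i : M ≃[L] N) (hM : K.mem M) (h : IsFree K M) : IsFree K N := by
  have hN : K.mem N := K.mem_iso i hM
  refine hasBases_of_iso (mapIso i) (fun S => ?_) (fun σ _ => ?_) h
  · constructor
    · intro h1
      have h2 := Ow.le_map i.symm.toEmbedding (AEC.Emb.of_equiv i.symm hN) h1
      have h3 : (S.map i.toHom).map i.symm.toEmbedding.toHom = S := map_symm_map i S
      have h4 : (mapIso i S).map i.symm.toEmbedding.toHom = S := h3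
      rwa [h4] at h2
    · intro h1
      exact Ow.le_map i.toEmbedding (AEC.Emb.of_equiv i hM) h1
  · refine ⟨i.comp (σ.comp i.symm), trivial, fun S => ?_⟩
    change (S.map i.toHom).map (i.comp (σ.comp i.symm)).toHom = (S.map σ.toHom).map i.toHom
    have hτ : ∀ y, (i.comp (σ.comp i.symm)) (i y) = i (σ y) := by
      intro y
      change i (σ (i.symm (i y))) = i (σ y)
      rw [i.symm_apply_apply]
    ext x
    constructor
    · rintro ⟨_, ⟨y, hy, rfl⟩, rfl⟩
      exact ⟨σ y, ⟨y, hy, rfl⟩, (hτ y).symm⟩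
    · rintro ⟨_, ⟨y, hy, rfl⟩, rfl⟩
      exact ⟨i y, ⟨y, hy, rfl⟩, hτ y⟩

end equiv

section up

variable {L L' : Language.{u, u}} {φ : L →ᴸ L'}

/-- The substructures of a structure and of its reduct. -/
noncomputable def dnIso (hf : ∀ n, Function.Bijective (φ.onFunction (n := n)))
    (M : Type u) [L'.Structure M] : L'.Substructure M ≃o L.Substructure (Dn φ M) where
  toEquiv := Equiv.ofBijective (fun S => dn φ S) ⟨fun S T h => Ow.dn_injective h, fun T => by
    obtain ⟨S, hS⟩ := exists_up (fun n => (hf n).2) T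
    exact ⟨S, hS⟩⟩
  map_rel_iff' := Iff.rfl

theorem isFree_up (K : AEC L) (hf : ∀ n, Function.Bijective (φ.onFunction (n := n)))
    (hr : ∀ n, Function.Surjective (φ.onRelation (n := n))) (M : Type u) [L'.Structure M] :
    IsFree (K.up φ hf hr) M ↔ IsFree K (Dn φ M) := by
  constructor
  · intro h
    refine hasBases_of_iso (dnIso hf M) (fun S => Iff.rfl) (fun σ _ => ?_) h
    refine ⟨dnEquiv φ σ, trivial, fun S => ?_⟩
    ext x
    exact Iff.rfl
  · intro h
    refine hasBases_of_iso (dnIso hf M).symm (fun S => ?_) (fun σ _ => ?_) h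
    · change K.le (dnIso hf M ((dnIso hf M).symm S)) ↔ K.le S
      rw [OrderIso.apply_symm_apply]
    · refine ⟨upEquiv hf hr σ, trivial, fun S => ?_⟩
      apply (dnIso hf M).injective
      rw [OrderIso.apply_symm_apply]
      have hS : dn φ ((dnIso hf M).symm S) = S := (dnIso hf M).apply_symm_apply S
      have h1 : (dn φ ((dnIso hf M).symm S)).map σ.toHom = S.map σ.toHom := by rw [hS]
      refine Eq.trans ?_ h1
      ext x
      exact Iff.rfl

end up

/-- The cardinalities of the members with free bases of the classes with a given code. -/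
def fspec {Λ : Type u} (c : CodeTy Λ) : Set Cardinal.{u} :=
  {κ | ∃ K : AEC (canLang c.1.1 c.1.2), K.IsLS #Λ ∧ K.part Λ = c.2 ∧
    ∃ (M : Type u) (_ : (canLang c.1.1 c.1.2).Structure M), K.mem M ∧ #M = κ ∧
      IsFree K M}

theorem exists_fcode {Λ : Type u} {L : Language.{u, u}} (K : AEC L) (hK : K.IsLS #Λ) :
    ∃ c : CodeTy Λ, ∀ κ, κ ∈ fspec c ↔ ∃ (M : Type u) (_ : L.Structure M), K.mem M ∧ #M = κ ∧
      IsFree K M := by
  obtain ⟨A, B, φ, hf, hr⟩ := exists_canLang L Λ hK.2.1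
  let K' : AEC (canLang A B) := K.up φ hf (fun n => (hr n).2)
  have hK' : K'.IsLS #Λ := AEC.up_isLS hf (fun n => (hr n).2) hK
  refine ⟨⟨(A, B), K'.part Λ⟩, fun κ => ?_⟩
  constructor
  · rintro ⟨K'', h1, h2, M, _, h3, h4, h5⟩
    have h6 : IsFree K' M := isFree_of_part_eq h2 h1 hK' h5
    exact ⟨Dn φ M, inferInstance, mem_of_part_eq h2 h1 h3, h4,
      (isFree_up K hf (fun n => (hr n).2) M).1 h6⟩
  · rintro ⟨M, _, h3, h4, h5⟩
    obtain ⟨s, ⟨e⟩⟩ := exists_expand hf hr M
    have h6 : K.mem (Dn φ M) := K.mem_iso e h3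
    have h7 : IsFree K (Dn φ M) := isFree_of_equiv e h3 h5
    exact ⟨K', hK', rfl, M, s, h6, h4, (isFree_up K hf (fun n => (hr n).2) M).2 h7⟩

/-- The Hanf number for members with free bases at a categoricity cardinal. -/
theorem exists_mu_free (l : Cardinal.{u}) : ∃ μ : Cardinal.{u}, ∀ (L : Language.{u, u})
    (K : AEC L), K.LS ≤ l → ∀ κ : Cardinal.{u}, μ ≤ κ → K.CategoricalIn κ →
      (∃ (M : Type u) (_ : L.Structure M), K.mem M ∧ #M = κ ∧ IsFree K M) →
        ∀ a : Cardinal.{u}, ∃ κ' : Cardinal.{u}, a ≤ κ' ∧ K.CategoricalIn κ' ∧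
          ∃ (M : Type u) (_ : L.Structure M), K.mem M ∧ #M = κ' ∧ IsFree K M := by
  obtain ⟨Λ, hΛ⟩ : ∃ Λ : Type u, #Λ = l := ⟨l.out, mk_out l⟩
  have h : ∀ c : CodeTy Λ × CodeTy Λ, ∃ b : Cardinal.{u},
      (∀ κ, κ ∈ spec c.1 → κ ∈ fspec c.2 → κ ≤ b) ∨
      ∀ b', ∃ κ, (κ ∈ spec c.1 ∧ κ ∈ fspec c.2) ∧ b' < κ := by
    intro c
    by_cases hb : ∃ b : Cardinal.{u}, ∀ κ, κ ∈ spec c.1 → κ ∈ fspec c.2 → κ ≤ b
    · obtain ⟨b, hb⟩ := hb
      exact ⟨b, Or.inl hb⟩
    · push Not at hb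
      refine ⟨0, Or.inr fun b' => ?_⟩
      obtain ⟨κ, h1, h2, h3⟩ := hb b'
      exact ⟨κ, ⟨h1, h2⟩, h3⟩
  choose b hb using h
  have hbdd : BddAbove (Set.range b) := bddAbove_of_small
  refine ⟨Order.succ (⨆ c, b c), ?_⟩
  intro L K hK κ hκ hcat hM a
  have hLS : K.IsLS #Λ := AEC.isLS_of_LS_le (hK.trans hΛ.ge)
  obtain ⟨c, hc, -⟩ := exists_code (Λ := Λ) K hLS
  obtain ⟨d, hd⟩ := exists_fcode (Λ := Λ) K hLS
  rcases hb (c, d) with h4 | h4
  · exfalso
    have h5 : κ ≤ b (c, d) := h4 _ ((hc _).2 hcat) ((hd _).2 hM)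
    have h6 : b (c, d) < κ := (Order.lt_succ_of_le (le_ciSup hbdd (c, d))).trans_le hκ
    exact absurd h5 (not_le.2 h6)
  · obtain ⟨κ', ⟨h5, h6⟩, h7⟩ := h4 a
    exact ⟨κ', h7.le, (hc κ').1 h5, (hd κ').1 h6⟩

/-- Q1 for the classes with one large categoricity cardinal whose member has free bases, from the
eventual statement. -/
theorem q1_free_of
    (hE : ∀ {L : Language.{u, u}} (K : AEC L), (∀ χ : Cardinal.{u}, ∃ κ : Cardinal.{u}, χ ≤ κ ∧
      K.CategoricalIn κ ∧ ∃ (M : Type u) (_ : L.Structure M), K.mem M ∧ #M = κ ∧ IsFree K M) →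
        ∃ χ : Cardinal.{u}, ∀ κ, χ ≤ κ → K.CategoricalIn κ) (l : Cardinal.{u}) :
    ∃ μ : Cardinal.{u}, l ≤ μ ∧ ∀ (L : Language.{u, u}) (K : AEC L), K.LS ≤ l →
      ∀ κ : Cardinal.{u}, μ ≤ κ → K.CategoricalIn κ →
        (∃ (M : Type u) (_ : L.Structure M), K.mem M ∧ #M = κ ∧ IsFree K M) →
          ∀ κ' : Cardinal.{u}, μ ≤ κ' → K.CategoricalIn κ' := by
  obtain ⟨μ₀, hμ₀, hμ⟩ := H67.exists_threshold l
  obtain ⟨μ₁, hμ₁⟩ := exists_mu_free l
  refine ⟨max μ₀ μ₁, hμ₀.trans (le_max_left _ _), ?_⟩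
  intro L K hK κ hκ hcat hM κ' hκ'
  exact hμ L K hK (hE K (hμ₁ L K hK κ ((le_max_right _ _).trans hκ) hcat hM)) κ'
    ((le_max_left _ _).trans hκ')

end Vale.Agent.P307.Ew
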