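import Vale.Agent.P307.Ew.CodeL
import Vale.Agent.P307.Ew.Fam
import Vale.Agent.P307.H4.EStdL
import Vale.Agent.P307.H479.E.EMFL

/-! The family of the spans of the free sets of a local family, large strong substructures only. -/

universe u

open FirstOrder Cardinal Set Function Language

namespace Vale.Agent.P307.Ew.FL

open H479.E
open H4.E (IsFreeL)
open Ow (le_map le_comap map_comap map_le_range)
open H227 (inc incl lft rgt)

variable {L : Language.{u, u}} {K : AEC L} (P : LocFam K) {l : Cardinal.{u}}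

/-- Free sets in large substructures extend to bases. -/
def ExtL {M : Type u} [L.Structure M] (l : Cardinal.{u}) (str : L.Substructure M → Prop) : Prop :=
  ∀ S T : L.Substructure M, str S → str T → l ≤ #S → S ≤ T → ∀ A, FreeIn str S A →
    ∃ B, A ⊆ B ∧ BasisOf str T B

theorem ExtL.of_emb {M N : Type u} [L.Structure M] [L.Structure N] (φ : M ↪[L] N)
    (hφ : K.Emb φ) (h : ExtL l (kle K N)) : ExtL l (kle K M) := by
  intro S T hS hT hl hST A hA
  obtain ⟨B, h1, h2⟩ := h (S.map φ.toHom) (T.map φ.toHom) (le_map φ hφ hS) (le_map φ hφ hT)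
    (by rwa [H4.E.card_map]) ((map_le_iff φ).2 hST) _ ((free_map_iff φ hφ).2 hA)
  have h3 : (fun X : L.Substructure M => X.map φ.toHom) '' {X | X.map φ.toHom ∈ B} = B := by
    ext Y
    constructor
    · rintro ⟨X, hX, rfl⟩
      exact hX
    · intro hY
      have h4 : Y ≤ φ.toHom.range := (h2.1.1 Y hY).2.trans (map_le_range φ T)
      refine ⟨Y.comap φ.toHom, ?_, map_comap φ h4⟩
      change (Y.comap φ.toHom).map φ.toHom ∈ B
      rwa [map_comap φ h4]
  refine ⟨{X | X.map φ.toHom ∈ B}, fun X hX => h1 ⟨X, hX, rfl⟩, ?_⟩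
  rw [← basis_map_iff φ hφ, h3]
  exact h2


theorem ext_of_equiv {M N : Type u} [L.Structure M] [L.Structure N] (i : M ≃[L] N)
    (hM : K.mem M) (h : IsFreeL K l N) : ExtL l (kle K M) :=
  ExtL.of_emb i.toEmbedding (AEC.Emb.of_equiv i hM) h.2.1

theorem ext_obj (h : ∀ χ : Cardinal.{u}, ∃ κ : Cardinal.{u}, χ ≤ κ ∧
      K.CategoricalIn κ ∧ ∃ (M : Type u) (_ : L.Structure M), K.mem M ∧ #M = κ ∧ IsFreeL K l M)
    (J : Type u) [LinearOrder J] : ExtL l (kle K (P.obj J)) := by
  classical
  have hK : K.IsLS K.LS := AEC.isLS_LS K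
  obtain ⟨κ, h1, hcat, M, _, hM, hMκ, hfree⟩ := h (max #(P.obj J) K.LS)
  let Z : Type u := J ⊕ₗ κ.ord.ToType
  let j : J ↪o Z := lft
  have hZ : κ ≤ #(P.obj Z) := by
    refine le_trans ?_ (mk_le_of_injective (c_injective P Z))
    change κ ≤ #(J ⊕ κ.ord.ToType)
    rw [mk_sum, lift_id, lift_id, mk_ord_toType]
    exact self_le_add_left _ _
  have hD : #(range (P.map j)) ≤ κ := mk_range_le.trans ((le_max_left _ _).trans h1)
  obtain ⟨A, hDA, hA⟩ : ∃ A : Set (P.obj Z), range (P.map j) ⊆ A ∧ #A = κ := by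
    obtain ⟨A₀, hA₀⟩ := le_mk_iff_exists_set.1 hZ
    refine ⟨range (P.map j) ∪ A₀, subset_union_left, le_antisymm ?_ ?_⟩
    · exact (mk_union_le _ _).trans
        (add_le_of_le (hK.1.trans ((le_max_right _ _).trans h1)) hD hA₀.le)
    · exact hA₀.ge.trans (mk_le_mk_of_subset subset_union_right)
  obtain ⟨S, hS1, hS2, hS3⟩ := hK.2.2 (P.obj Z) (mem_obj P Z) A
  have hSκ : #S = κ := by
    apply le_antisymm
    · exact hS3.trans (add_le_of_le (hK.1.trans ((le_max_right _ _).trans h1)) hA.le
        ((le_max_right _ _).trans h1))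
    · exact hA.ge.trans (mk_le_mk_of_subset hS2)
  have hSm : K.mem S := (K.mem_of_le _ hS1).1
  obtain ⟨e⟩ := hcat.2 S M hSm hM hSκ hMκ
  have hExt : ExtL l (kle K S) := ext_of_equiv e hSm hfree
  let θ : P.obj J ↪[L] S := Embedding.codRestrict S (P.map j) fun a => hS2 (hDA ⟨a, rfl⟩)
  have hθ : K.Emb θ := by
    refine AEC.Emb.of_comp (AEC.emb_subtype.2 hS1) ?_
    have h2 : S.subtype.comp θ = P.map j := by
      apply Language.Embedding.ext
      intro x
      rfl
    rw [h2]
    exact P.emb j
  exact ExtL.of_emb θ hθ hExt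

section

variable (h : ∀ χ : Cardinal.{u}, ∃ κ : Cardinal.{u}, χ ≤ κ ∧
      K.CategoricalIn κ ∧ ∃ (M : Type u) (_ : L.Structure M), K.mem M ∧ #M = κ ∧ IsFreeL K l M)

  (hP : ∀ (I : Type u) [LinearOrder I], l ≤ #(P.obj I))

include P h hP

theorem map_free {I J : Type u} [LinearOrder I] [LinearOrder J] (f : I ↪o J)
    (hI : FreeIn (kle K (P.obj I)) ⊤ (range (P.U I))) :
    FreeIn (kle K (P.obj J)) ⊤ (P.U J '' range f) := by
  have h1 := (free_map_iff (P.map f) (P.emb f)).2 hI
  have h2 : (fun X : L.Substructure (P.obj I) => X.map (P.map f).toHom) '' range (P.U I) =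
      P.U J '' range f := by
    rw [← range_comp, ← range_comp]
    congr 1
    funext k
    exact P.map_U f k
  rw [h2] at h1
  have hl : l ≤ #((⊤ : L.Substructure (P.obj I)).map (P.map f).toHom) := by
    rw [H4.E.card_map]
    refine (hP I).trans_eq ?_
    exact (mk_congr (Equiv.Set.univ (P.obj I))).symm
  obtain ⟨B, h3, h4⟩ := ext_obj P h J _ _ (le_map (P.map f) (P.emb f) (K.le_refl (mem_obj P I)))
    (K.le_refl (mem_obj P J)) hl le_top _ h1
  exact h4.1.mono h3

theorem free_finset {J : Type u} [LinearOrder J] (s : Finset J) :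
    FreeIn (kle K (P.obj J)) ⊤ (P.U J '' s) := by
  obtain ⟨n, f, hf⟩ := exists_fin s
  rw [← hf]
  exact map_free P h hP f (P.loc _)

omit h hP in
theorem lst_map {I J : Type u} [LinearOrder I] [LinearOrder J] (f : I ↪o J) {A : Set I}
    {V : L.Substructure (P.obj I)} (hJ : FreeIn (kle K (P.obj J)) ⊤ (P.U J '' (f '' A)))
    (hV : Lst (kle K (P.obj I)) ⊤ (P.U I '' A) V) :
    Lst (kle K (P.obj J)) ⊤ (P.U J '' (f '' A)) (V.map (P.map f).toHom) := by
  have h1 := (lst_map_iff (P.map f) (P.emb f)).2 hV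
  have h2 : (fun X : L.Substructure (P.obj I) => X.map (P.map f).toHom) '' (P.U I '' A) =
      P.U J '' (f '' A) := by
    rw [image_image, image_image]
    refine image_congr fun k _ => ?_
    exact P.map_U f k
  rw [h2] at h1
  exact h1.up hJ subset_rfl (le_map (P.map f) (P.emb f) (K.le_refl (mem_obj P I))) le_top

theorem free_all (J : Type u) [LinearOrder J] :
    FreeIn (kle K (P.obj J)) ⊤ (range (P.U J)) ∧ ∀ B ⊆ range (P.U J), ∀ U,
      Lst (kle K (P.obj J)) ⊤ B U → ∀ x ∈ U,
        ∃ F : Finset (L.Substructure (P.obj J)), (F : Set (L.Substructure (P.obj J))) ⊆ B ∧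
          ∀ V, Lst (kle K (P.obj J)) ⊤ (F : Set (L.Substructure (P.obj J))) V → x ∈ V := by
  classical
  have hpre : ∀ F : Finset (L.Substructure (P.obj J)),
      (F : Set (L.Substructure (P.obj J))) ⊆ range (P.U J) →
      ∃ s : Finset J, P.U J '' (s : Set J) = F := by
    intro F hF
    refine ⟨F.preimage (P.U J) ((U_injective P J).injOn), ?_⟩
    rw [Finset.coe_preimage, image_preimage_eq_iff]
    exact hF
  refine free_of_fin (fun F hF => ?_) ?_
  · obtain ⟨s, hs⟩ := hpre F hF
    rw [← hs]
    exact free_finset P h hP s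
  · rintro _ ⟨j, rfl⟩
    refine ⟨P.c J j, P.c_mem J j, fun F hF hjF U hU hc => ?_⟩
    obtain ⟨s, hs⟩ := hpre F hF
    have hjs : j ∉ s := fun h1 => hjF (by
      have h2 : P.U J j ∈ P.U J '' (s : Set J) := ⟨j, h1, rfl⟩
      rw [hs] at h2
      exact h2)
    obtain ⟨n, f, hf⟩ := exists_fin (insert j s)
    obtain ⟨k, hk⟩ : ∃ k, f k = j := by
      have h1 : j ∈ range f := by rw [hf]; simp
      exact h1
    let B : Set (ULift.{u} (Fin n)) := f ⁻¹' (s : Set J)
    have hB : f '' B = s := by
      rw [image_preimage_eq_iff, hf]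
      intro x hx
      exact Finset.mem_coe.2 (Finset.mem_insert_of_mem hx)
    have hkB : k ∉ B := by
      intro h1
      apply hjs
      have h2 : f k ∈ (s : Set J) := h1
      rw [hk] at h2
      exact h2
    obtain ⟨V, hV, -⟩ := (P.loc _).2.2 (P.U _ '' B) (image_subset_range _ _)
    have hV2 := lst_map P f (by rw [hB]; exact free_finset P h hP s) hV
    rw [hB, hs] at hV2
    have h3 := hU.unique hV2
    rw [h3, ← hk, ← P.map_c, mem_map_iff] at hc
    exact P.sep _ k B hkB V hV hc

/-- The span of a set of indices. -/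
theorem exists_span (J : Type u) [LinearOrder J] (A : Set J) :
    ∃ U, Lst (kle K (P.obj J)) ⊤ (P.U J '' A) U := by
  obtain ⟨U, hU, -⟩ := (free_all P h hP J).1.2.2 (P.U J '' A) (image_subset_range _ _)
  exact ⟨U, hU⟩

theorem exists_fam_of_freeL : ∃ F : Pw.Fam K, ∀ (I : Type u) [LinearOrder I],
    BasisOf (fun S : L.Substructure (F.obj I) => K.le S) ⊤ (range fun i : I => F.sub {i}) := by
  classical
  choose Sp hSp using fun (J : Type u) (lo : LinearOrder J) (A : Set J) => exists_span P h hP J A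
  have hfree : ∀ (J : Type u) (lo : LinearOrder J),
      FreeIn (kle K (P.obj J)) ⊤ (range (P.U J)) := fun J lo => (free_all P h hP J).1
  have hmapSp : ∀ {I J : Type u} [lo : LinearOrder I] [lo' : LinearOrder J] (f : I ↪o J)
      (A : Set I), (Sp I lo A).map (P.map f).toHom = Sp J lo' (f '' A) := by
    intro I J lo lo' f A
    exact (lst_map P f ((hfree J lo').mono (image_subset_range _ _)) (hSp I lo A)).unique
      (hSp J lo' (f '' A))
  have hSpmono : ∀ (J : Type u) (lo : LinearOrder J) {A B : Set J}, A ⊆ B →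
      Sp J lo A ≤ Sp J lo B := by
    intro J lo A B hAB
    exact (hSp J lo A).2.2.2 _ (hSp J lo B).1 le_top fun X hX =>
      (hSp J lo B).2.2.1 X (image_mono hAB hX)
  have hSp1 : ∀ (J : Type u) (lo : LinearOrder J) (j : J), Sp J lo {j} = P.U J j := by
    intro J lo j
    refine (hSp J lo {j}).unique ⟨((hfree J lo).1 _ ⟨j, rfl⟩).1, le_top, ?_, ?_⟩
    · rintro _ ⟨j', hj', rfl⟩
      rw [mem_singleton_iff.1 hj']
    · intro V _ _ hV
      exact hV _ ⟨j, rfl, rfl⟩
  have hSple : ∀ (J : Type u) (lo : LinearOrder J) {A B : Set J}, Sp J lo A ≤ Sp J lo B →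
      A ⊆ B := by
    intro J lo A B hAB a ha
    obtain ⟨U, hU, hU2⟩ := (hfree J lo).2.2 (P.U J '' B) (image_subset_range _ _)
    have h1 : P.U J a ≤ U := by
      rw [hU.unique (hSp J lo B)]
      exact ((hSp J lo A).2.2.1 _ ⟨a, ha, rfl⟩).trans hAB
    obtain ⟨b, hb, hb2⟩ := hU2 _ ⟨a, rfl⟩ h1
    rwa [← U_injective P J hb2]
  let T : ∀ (I : Type u) [LinearOrder I], L.Substructure (P.obj I) := fun I lo => Sp I lo Set.univ
  have hT : ∀ (I : Type u) [LinearOrder I], K.le (T I) := fun I lo => (hSp I lo _).1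
  have hmaps : ∀ {I J : Type u} [LinearOrder I] [LinearOrder J] (i : I ↪o J) (a : T I),
      P.map i a.1 ∈ T J := by
    intro I J lo lo' i a
    have h1 : P.map i a.1 ∈ (T I).map (P.map i).toHom := ⟨a.1, a.2, rfl⟩
    rw [hmapSp] at h1
    exact hSpmono J lo' (subset_univ _) h1
  let m : ∀ {I J : Type u} [LinearOrder I] [LinearOrder J] (_ : I ↪o J), (T I ↪[L] T J) :=
    fun {I J} _ _ i => Embedding.codRestrict (T J) ((P.map i).comp (T I).subtype) (hmaps i)
  have hrange : ∀ (I : Type u) [lo : LinearOrder I] (A : Set I),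
      (m (OrderEmbedding.subtype (· ∈ A))).toHom.range.map (T I).subtype.toHom =
        Sp I lo A := by
    intro I lo A
    have h1 := hmapSp (OrderEmbedding.subtype (· ∈ A)) Set.univ
    have h2 : OrderEmbedding.subtype (· ∈ A) '' Set.univ = A := by
      rw [image_univ]
      exact Subtype.range_coe
    rw [h2] at h1
    rw [← h1]
    ext y
    constructor
    · rintro ⟨_, ⟨z, rfl⟩, rfl⟩
      exact ⟨z.1, z.2, rfl⟩
    · rintro ⟨z, hz, rfl⟩
      exact ⟨_, ⟨⟨z, hz⟩, rfl⟩, rfl⟩
  have hEmb : ∀ (I : Type u) [LinearOrder I], K.Emb (T I).subtype := fun I _ =>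
    AEC.emb_subtype.2 (hT I)
  let F : Pw.Fam K :=
    { obj := fun I _ => T I, str := fun I _ => inferInstance, map := fun i => m i
      map_refl := fun a => Subtype.ext (P.map_refl _)
      map_trans := fun i j a => Subtype.ext (P.map_trans _ _ _)
      emb_map := by
        intro I J _ _ i
        refine AEC.Emb.of_comp (hEmb J) ?_
        have h1 : (T J).subtype.comp (m i) = (P.map i).comp (T I).subtype := by
          apply Language.Embedding.ext
          intro x
          rfl
        rw [h1]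
        exact AEC.Emb.comp (P.emb i) (hEmb I)
      mono := by
        intro I lo A B hAB
        have h1 := Substructure.monotone_map (f := (T I).subtype.toHom) hAB
        rw [hrange, hrange] at h1
        exact hSple I lo h1
      fin := by
        intro I lo a
        obtain ⟨F, hF1, hF2⟩ := (free_all P h hP I).2 (P.U I '' Set.univ) (image_subset_range _ _)
          (T I) (hSp I lo Set.univ) a.1 a.2
        have hF3 : (F : Set (L.Substructure (P.obj I))) ⊆ range (P.U I) :=
          hF1.trans (image_subset_range _ _)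
        let s : Finset I := F.preimage (P.U I) ((U_injective P I).injOn)
        have hs : P.U I '' (s : Set I) = F := by
          rw [Finset.coe_preimage, image_preimage_eq_iff]
          exact hF3
        refine ⟨(s : Set I), s.finite_toSet, ?_⟩
        have h1 : a.1 ∈ Sp I lo (s : Set I) := by
          refine hF2 _ ?_
          rw [← hs]
          exact hSp I lo _
        rw [← hrange] at h1
        obtain ⟨y, hy, hya⟩ := h1
        have h2 : y = a := Subtype.ext hya
        rw [← h2]
        exact hy }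
  refine ⟨F, fun I lo => ?_⟩
  have hsub : ∀ A : Set I, (F.sub A).map (T I).subtype.toHom = Sp I lo A := fun A => hrange I A
  rw [← basis_map_iff (T I).subtype (hEmb I)]
  have h1 : (⊤ : L.Substructure (T I)).map (T I).subtype.toHom = T I := by
    ext x
    constructor
    · rintro ⟨y, -, rfl⟩
      exact y.2
    · intro hx
      exact ⟨⟨x, hx⟩, trivial, rfl⟩
  have h2 : (fun X : L.Substructure (T I) => X.map (T I).subtype.toHom) ''
      (range fun i : I => F.sub {i}) = range (P.U I) := by
    rw [← range_comp]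
    congr 1
    funext i
    exact (hsub {i}).trans (hSp1 I lo i)
  have h3 : (fun X : L.Substructure (F.obj I) => X.map (T I).subtype.toHom) ''
      (range fun i : I => F.sub {i}) = range (P.U I) := h2
  rw [h3]
  have h4 : (⊤ : L.Substructure (F.obj I)).map (T I).subtype.toHom = T I := h1
  rw [h4]
  have h5 := hSp I lo Set.univ
  rw [image_univ] at h5
  exact ⟨(hfree I lo).down (hT I) le_top fun X hX => h5.2.2.1 X hX,
    h5.down (hT I) le_top fun X hX => h5.2.2.1 X hX⟩

end

end Vale.Agent.P307.Ew.FL
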