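import Vale.Agent.P307.Ew.Code
import Vale.Agent.P307.H4.EStd
import Vale.Agent.P307.H479.E.EMF

/-! Categoricity transfer for classes with bases, over the existence of the family. -/

universe u

open FirstOrder Cardinal Set Function Language

namespace Vale.Agent.P307.Ew

open H479.E

/-- `κ` is a categoricity cardinal whose member has bases. -/
def Good {L : Language.{u, u}} (K : AEC L) (κ : Cardinal.{u}) : Prop :=
  K.CategoricalIn κ ∧ ∃ (M : Type u) (_ : L.Structure M), K.mem M ∧ #M = κ ∧ IsFree K M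

theorem exists_locFam_of_good {L : Language.{u, u}} (K : AEC L)
    (h : ∀ χ : Cardinal.{u}, ∃ κ : Cardinal.{u}, χ ≤ κ ∧
      K.CategoricalIn κ ∧ ∃ (M : Type u) (_ : L.Structure M), K.mem M ∧ #M = κ ∧ IsFree K M) :
    Nonempty (LocFam K) := by
  obtain ⟨κ, h1, -, M, _, h2, h3, h4⟩ := h (max (hanf (2 ^ K.LS)) (Order.succ K.LS))
  obtain ⟨⟨A, hA⟩, -, -⟩ := h4
  refine exists_locFam (AEC.isLS_LS K) h2 hA ?_ ?_
  · rw [h3]
    exact (le_max_left _ _).trans h1
  · rw [h3]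
    exact Order.succ_le_iff.1 ((le_max_right _ _).trans h1)

theorem eventually_of_free_of
    (hFam : ∀ {L : Language.{u, u}} (K : AEC L), (∀ χ : Cardinal.{u}, ∃ κ : Cardinal.{u}, χ ≤ κ ∧
      K.CategoricalIn κ ∧ ∃ (M : Type u) (_ : L.Structure M), K.mem M ∧ #M = κ ∧ IsFree K M) →
      LocFam K → ∃ F : Pw.Fam K, ∀ (I : Type u) [LinearOrder I],
        BasisOf (fun S : L.Substructure (F.obj I) => K.le S) ⊤ (range fun i : I => F.sub {i}))
    {L : Language.{u, u}} (K : AEC L) (h : ∀ χ : Cardinal.{u}, ∃ κ : Cardinal.{u}, χ ≤ κ ∧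
      K.CategoricalIn κ ∧ ∃ (M : Type u) (_ : L.Structure M), K.mem M ∧ #M = κ ∧ IsFree K M) :
    ∃ χ : Cardinal.{u}, ∀ κ, χ ≤ κ → K.CategoricalIn κ := by
  obtain ⟨P⟩ := exists_locFam_of_good K h
  obtain ⟨F, hF⟩ := hFam K h P
  obtain ⟨l, hK⟩ := F.exists_ok
  refine Pw.eventually_of_stdAt F fun χ => ?_
  obtain ⟨κ, h1, h2, h3⟩ := h (max χ (Order.succ (max l ℵ₀)))
  have h4 := H4.E.stdAt_conjAt hK (Order.succ_le_iff.1 ((le_max_right _ _).trans h1)) hF h2 h3
  exact ⟨κ, (le_max_left _ _).trans h1, h2, h4.1, h4.2⟩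

/-- Q1 for the classes with one large categoricity cardinal whose member has bases, over the
existence of the family. -/
theorem q1_free_of_fam
    (hFam : ∀ {L : Language.{u, u}} (K : AEC L), (∀ χ : Cardinal.{u}, ∃ κ : Cardinal.{u}, χ ≤ κ ∧
      K.CategoricalIn κ ∧ ∃ (M : Type u) (_ : L.Structure M), K.mem M ∧ #M = κ ∧ IsFree K M) →
      LocFam K → ∃ F : Pw.Fam K, ∀ (I : Type u) [LinearOrder I],
        BasisOf (fun S : L.Substructure (F.obj I) => K.le S) ⊤ (range fun i : I => F.sub {i}))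
    (l : Cardinal.{u}) :
    ∃ μ : Cardinal.{u}, l ≤ μ ∧ ∀ (L : Language.{u, u}) (K : AEC L), K.LS ≤ l →
      ∀ κ : Cardinal.{u}, μ ≤ κ → K.CategoricalIn κ →
        (∃ (M : Type u) (_ : L.Structure M), K.mem M ∧ #M = κ ∧ IsFree K M) →
          ∀ κ' : Cardinal.{u}, μ ≤ κ' → K.CategoricalIn κ' :=
  q1_free_of (fun K h => eventually_of_free_of hFam K h) l

end Vale.Agent.P307.Ew
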