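import Vale.Agent.P307.H479.E.Defs
import Vale.Agent.P307.Ow.Lat

/-! Distinct representatives of the members of a basis. -/

universe u

open FirstOrder Cardinal Set Function Language

namespace Vale.Agent.P307.Ew

open H479.E

variable {L : Language.{u, u}} {K : AEC L} {M : Type u} [L.Structure M]

/-- The members of a free set are small. -/
theorem card_le_of_freeIn {l : Cardinal.{u}} (hK : K.IsLS l)
    {S : L.Substructure M} {B : Set (L.Substructure M)}
    (hB : FreeIn (fun S : L.Substructure M => K.le S) S B) {T : L.Substructure M} (hT : T ∈ B) :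
    #T ≤ l := by
  obtain ⟨h1, h2, h3⟩ := hB
  obtain ⟨U, hU, hU2⟩ := h3 ∅ (Set.empty_subset _)
  have hTU : ¬ T ≤ U := fun h => hU2 T hT h
  obtain ⟨p, hp, hpU⟩ := SetLike.not_le_iff_exists.1 hTU
  have hTK : K.le T := (h1 T hT).1
  obtain ⟨V, hV1, hV2, hV3⟩ := hK.2.2 T (K.mem_of_le _ hTK).1 {⟨p, hp⟩}
  have hV4 : K.le (V.map T.subtype.toHom) := Ow.le_map T.subtype (AEC.emb_subtype.2 hTK) hV1
  have hpV : p ∈ V.map T.subtype.toHom := ⟨⟨p, hp⟩, hV2 rfl, rfl⟩
  have hVT : V.map T.subtype.toHom ≤ T := by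
    rintro _ ⟨x, -, rfl⟩
    exact x.2
  have hcard : #(V.map T.subtype.toHom : L.Substructure M) ≤ l := by
    have h4 : #(V.map T.subtype.toHom : L.Substructure M) ≤ #V := by
      have h5 : ((V.map T.subtype.toHom : L.Substructure M) : Set M) = Subtype.val '' (V : Set T) := rfl
      calc #(V.map T.subtype.toHom : L.Substructure M) = #(Subtype.val '' (V : Set T)) := by
            rw [← h5]
            rfl
        _ ≤ #(V : Set T) := mk_image_le
        _ = #V := rfl
    refine h4.trans (hV3.trans ?_)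
    rw [mk_singleton]
    exact add_le_of_le hK.1 (one_le_aleph0.trans hK.1) le_rfl
  rcases h2 T hT _ hV4 hVT with h4 | h4
  · rwa [h4] at hcard
  · exact absurd (h4.2.2.2 U hU.1 hU.2.1 (fun _ h => absurd h (Set.notMem_empty _)) hpV) hpU

/-- Distinct representatives of a large part of a basis. -/
theorem exists_reps {l : Cardinal.{u}} (hK : K.IsLS l) (hM : K.mem M) (hl : l < #M)
    {B : Set (L.Substructure M)}
    (hB : BasisOf (fun S : L.Substructure M => K.le S) ⊤ B) :
    ∃ (T : (#M).ord.ToType → L.Substructure M) (p : (#M).ord.ToType → M),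
      Injective T ∧ (∀ i, T i ∈ B) ∧ Injective p ∧ (∀ i, p i ∈ T i) ∧ ∀ i, #(T i) ≤ l := by
  classical
  have hℵ : ℵ₀ ≤ #M := hK.1.trans hl.le
  have hcard : ∀ T ∈ B, #T ≤ l := fun T hT => card_le_of_freeIn hK hB.1 hT
  have hpick : ∀ D : Set M, #D < #M → ∃ q : L.Substructure M × M, q.1 ∈ B ∧ q.2 ∈ q.1 ∧
      q.2 ∉ D := by
    intro D hD
    by_contra hcon
    push Not at hcon
    obtain ⟨V, hV1, hV2, hV3⟩ := hK.2.2 M hM D
    have h1 : (⊤ : L.Substructure M) ≤ V := hB.2.2.2.2 V hV1 le_top fun T hT x hx =>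
      hV2 (hcon (T, x) hT hx)
    have h2 : #M ≤ #V := by
      have h3 : (V : Set M) = Set.univ := by
        ext x
        exact ⟨fun _ => trivial, fun _ => h1 trivial⟩
      have h4 : #(V : Set M) = #M := by rw [h3, mk_univ]
      exact h4.ge
    have h3 : #D + l < #M := add_lt_of_lt hℵ hD hl
    exact absurd (h2.trans hV3) (not_le.2 h3)
  have hne : Nonempty (L.Substructure M × M) := by
    obtain ⟨q, -⟩ := hpick ∅ (by rw [mk_eq_zero]; exact aleph0_pos.trans_le hℵ)
    exact ⟨q⟩
  let pick : Set M → L.Substructure M × M := fun D =>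
    if h : #D < #M then (hpick D h).choose else Classical.choice hne
  have hpick2 : ∀ D : Set M, #D < #M → (pick D).1 ∈ B ∧ (pick D).2 ∈ (pick D).1 ∧
      (pick D).2 ∉ D := by
    intro D h
    have h1 : pick D = (hpick D h).choose := dif_pos h
    rw [h1]
    exact (hpick D h).choose_spec
  let g : (#M).ord.ToType → L.Substructure M × M := WellFoundedLT.fix fun i rec =>
    pick (⋃ j : {j // j < i}, ((rec j.1 j.2).1 : Set M))
  have hg : ∀ i, g i = pick (⋃ j : {j // j < i}, ((g j.1).1 : Set M)) := fun i =>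
    WellFoundedLT.fix_eq _ i
  have key : ∀ i, (g i).1 ∈ B ∧ (g i).2 ∈ (g i).1 ∧
      (g i).2 ∉ ⋃ j : {j // j < i}, ((g j.1).1 : Set M) := by
    intro i
    induction i using WellFoundedLT.induction with
    | ind i ih =>
      have h1 : #(⋃ j : {j // j < i}, ((g j.1).1 : Set M)) < #M := by
        refine (mk_iUnion_le _).trans_lt ?_
        refine mul_lt_of_lt hℵ (mk_Iio_ord_toType i) ?_
        exact (ciSup_le' fun j : {j // j < i} => hcard _ (ih j.1 j.2).1).trans_lt hl
      rw [hg i]
      exact hpick2 _ h1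
  refine ⟨fun i => (g i).1, fun i => (g i).2, ?_, fun i => (key i).1, ?_, fun i => (key i).2.1,
    fun i => hcard _ (key i).1⟩
  · intro i j hij
    by_contra hne
    rcases lt_or_gt_of_ne hne with h | h
    · apply (key j).2.2
      refine mem_iUnion.2 ⟨⟨i, h⟩, ?_⟩
      change (g j).2 ∈ (g i).1
      have h1 : (g i).1 = (g j).1 := hij
      rw [h1]
      exact (key j).2.1
    · apply (key i).2.2
      refine mem_iUnion.2 ⟨⟨j, h⟩, ?_⟩
      change (g i).2 ∈ (g j).1
      have h1 : (g i).1 = (g j).1 := hij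
      rw [← h1]
      exact (key i).2.1
  · intro i j hij
    have h1 : (g i).2 = (g j).2 := hij
    by_contra hne
    rcases lt_or_gt_of_ne hne with h | h
    · apply (key j).2.2
      refine mem_iUnion.2 ⟨⟨i, h⟩, ?_⟩
      change (g j).2 ∈ (g i).1
      rw [← h1]
      exact (key i).2.1
    · apply (key i).2.2
      refine mem_iUnion.2 ⟨⟨j, h⟩, ?_⟩
      change (g i).2 ∈ (g j).1
      rw [h1]
      exact (key j).2.1

end Vale.Agent.P307.Ew
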