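import Vale.Agent.P307.Ew.Fam

/-! Categoricity transfer for classes whose member at a large categoricity cardinal has bases. -/

universe u

open FirstOrder Cardinal Set Function Language

namespace Vale.Agent.P307.Ew

open H479.E

theorem eventually_of_free {L : Language.{u, u}} (K : AEC L)
    (h : ∀ χ : Cardinal.{u}, ∃ κ : Cardinal.{u}, χ ≤ κ ∧
      K.CategoricalIn κ ∧ ∃ (M : Type u) (_ : L.Structure M), K.mem M ∧ #M = κ ∧ IsFree K M) :
    ∃ χ : Cardinal.{u}, ∀ κ, χ ≤ κ → K.CategoricalIn κ :=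
  eventually_of_free_of (fun _ h P => exists_fam_of_free P h) K h

/-- Q1 for the classes with one large categoricity cardinal whose member has bases. -/
theorem q1_free (l : Cardinal.{u}) :
    ∃ μ : Cardinal.{u}, l ≤ μ ∧ ∀ (L : Language.{u, u}) (K : AEC L), K.LS ≤ l →
      ∀ κ : Cardinal.{u}, μ ≤ κ → K.CategoricalIn κ →
        (∃ (M : Type u) (_ : L.Structure M), K.mem M ∧ #M = κ ∧ IsFree K M) →
          ∀ κ' : Cardinal.{u}, μ ≤ κ' → K.CategoricalIn κ' :=
  q1_free_of_fam (fun _ h P => exists_fam_of_free P h) l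

end Vale.Agent.P307.Ew
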