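import Vale.Agent.P307.Ew.FamL
import Vale.Agent.P307.H227.Lg

/-! Categoricity transfer for classes whose member at a large categoricity cardinal has bases,
large strong substructures only. -/

universe u

open FirstOrder Cardinal Set Function Language

namespace Vale.Agent.P307.Ew

open H479.E
open H4.E (IsFreeL)

theorem eventually_of_freeL {l : Cardinal.{u}} {L : Language.{u, u}} (K : AEC L) (hK : K.IsLS l)
    (h : ∀ χ : Cardinal.{u}, ∃ κ : Cardinal.{u}, χ ≤ κ ∧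
      K.CategoricalIn κ ∧ ∃ (M : Type u) (_ : L.Structure M), K.mem M ∧ #M = κ ∧
        IsFreeL K l M) :
    ∃ χ : Cardinal.{u}, ∀ κ, χ ≤ κ → K.CategoricalIn κ := by
  obtain ⟨κ, h1, -, M, _, h2, h3, h4⟩ := h (max (hanf (2 ^ l)) (Order.succ l))
  obtain ⟨⟨A, hA⟩, -, -⟩ := h4
  obtain ⟨P, hP⟩ := exists_locFam_large hK h2 hA (by
    rw [h3]
    exact (le_max_left _ _).trans h1) (by
    rw [h3]
    exact Order.succ_le_iff.1 ((le_max_right _ _).trans h1))
  obtain ⟨F, hF⟩ := FL.exists_fam_of_freeL P h hP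
  obtain ⟨l₀, hl₀⟩ := F.exists_ok
  have hOk : F.Ok (max l₀ l) :=
    ⟨⟨hl₀.ls.1.trans (le_max_left _ _), hl₀.ls.2.1.trans (le_max_left _ _), fun N _ hN A => by
      obtain ⟨S, h5, h6, h7⟩ := hl₀.ls.2.2 N hN A
      exact ⟨S, h5, h6, h7.trans (add_le_add_right (le_max_left _ _) _)⟩⟩,
      fun n => (hl₀.bd n).trans (le_max_left _ _)⟩
  refine Pw.eventually_of_stdAtL F hOk fun χ => ?_
  obtain ⟨κ, h5, h6, h7⟩ := h (max χ (Order.succ (max (max l₀ l) ℵ₀)))
  have h8 := H4.E.stdAtL_conjAtL hOk (le_max_right _ _)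
    (Order.succ_le_iff.1 ((le_max_right _ _).trans h5)) hF h6 h7
  exact ⟨κ, (le_max_left _ _).trans h5, h6, h8.1, h8.2⟩

/-- Q1 for the classes with one large categoricity cardinal whose member has bases. -/
theorem q1_freeL (l : Cardinal.{u}) :
    ∃ μ : Cardinal.{u}, l ≤ μ ∧ ∀ (L : Language.{u, u}) (K : AEC L), K.LS ≤ l →
      ∀ κ : Cardinal.{u}, μ ≤ κ → K.CategoricalIn κ →
        (∃ (M : Type u) (_ : L.Structure M), K.mem M ∧ #M = κ ∧ IsFreeL K l M) →
          ∀ κ' : Cardinal.{u}, μ ≤ κ' → K.CategoricalIn κ' :=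
  q1_freeL_of (fun K hK h => eventually_of_freeL K hK h) l

end Vale.Agent.P307.Ew
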