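import Vale.Agent.P307.H479.E.Defs

/-! Transfer of bases along order isomorphisms of the substructures. -/

universe u

open FirstOrder Cardinal Set Function Language

namespace Vale.Agent.P307.Ew

open H479.E

variable {L L' : Language.{u, u}} {M M' : Type u} [L.Structure M] [L'.Structure M']
  {str : L.Substructure M → Prop} {str' : L'.Substructure M' → Prop}

theorem lst_iso (E : L.Substructure M ≃o L'.Substructure M') (hstr : ∀ S, str' (E S) ↔ str S)
    {S U : L.Substructure M} {B : Set (L.Substructure M)} :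
    Lst str' (E S) (E '' B) (E U) ↔ Lst str S B U := by
  unfold Lst
  rw [hstr, E.le_iff_le, Set.forall_mem_image]
  refine and_congr Iff.rfl (and_congr Iff.rfl (and_congr ?_ ?_))
  · exact forall₂_congr fun T _ => E.le_iff_le
  · constructor
    · intro h V h1 h2 h3
      refine E.le_iff_le.1 (h (E V) ((hstr V).2 h1) (E.le_iff_le.2 h2) ?_)
      rintro _ ⟨T, hT, rfl⟩
      exact E.le_iff_le.2 (h3 T hT)
    · intro h V h1 h2 h3
      obtain ⟨V, rfl⟩ := E.surjective V
      exact E.le_iff_le.2 (h V ((hstr V).1 h1) (E.le_iff_le.1 h2) fun T hT =>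
        E.le_iff_le.1 (h3 _ ⟨T, hT, rfl⟩))

theorem freeIn_iso (E : L.Substructure M ≃o L'.Substructure M') (hstr : ∀ S, str' (E S) ↔ str S)
    {S : L.Substructure M} {A : Set (L.Substructure M)} :
    FreeIn str' (E S) (E '' A) ↔ FreeIn str S A := by
  unfold FreeIn
  refine and_congr ?_ (and_congr ?_ ?_)
  · rw [Set.forall_mem_image]
    exact forall₂_congr fun T _ => and_congr (hstr T) E.le_iff_le
  · rw [Set.forall_mem_image]
    refine forall₂_congr fun T _ => ?_
    rw [E.surjective.forall]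
    refine forall_congr' fun T' => ?_
    rw [hstr, E.le_iff_le, E.injective.eq_iff]
    refine imp_congr Iff.rfl (imp_congr Iff.rfl (or_congr Iff.rfl ?_))
    have h := lst_iso E hstr (S := S) (U := T') (B := ∅)
    rwa [Set.image_empty] at h
  · constructor
    · intro h B hB
      obtain ⟨U, h1, h2⟩ := h (E '' B) (Set.image_mono hB)
      obtain ⟨U, rfl⟩ := E.surjective U
      refine ⟨U, (lst_iso E hstr).1 h1, fun T hT hTU => ?_⟩
      obtain ⟨T', hT', h3⟩ := h2 (E T) ⟨T, hT, rfl⟩ (E.le_iff_le.2 hTU)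
      rwa [← E.injective h3]
    · intro h B hB
      obtain ⟨B, hB', rfl⟩ := Set.subset_image_iff.1 hB
      obtain ⟨U, h1, h2⟩ := h B hB'
      refine ⟨E U, (lst_iso E hstr).2 h1, ?_⟩
      rintro _ ⟨T, hT, rfl⟩ hTU
      exact ⟨T, h2 T hT (E.le_iff_le.1 hTU), rfl⟩

theorem basisOf_iso (E : L.Substructure M ≃o L'.Substructure M') (hstr : ∀ S, str' (E S) ↔ str S)
    {S : L.Substructure M} {A : Set (L.Substructure M)} :
    BasisOf str' (E S) (E '' A) ↔ BasisOf str S A :=
  and_congr (freeIn_iso E hstr) (lst_iso E hstr)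

theorem hasBases_of_iso {aut : (M ≃[L] M) → Prop} {aut' : (M' ≃[L'] M') → Prop}
    (E : L.Substructure M ≃o L'.Substructure M') (hstr : ∀ S, str' (E S) ↔ str S)
    (haut : ∀ σ : M ≃[L] M, aut σ → ∃ σ' : M' ≃[L'] M', aut' σ' ∧
      ∀ S : L.Substructure M, (E S).map σ'.toHom = E (S.map σ.toHom))
    (h : HasBases str aut) : HasBases str' aut' := by
  obtain ⟨⟨A, hA⟩, h2, h3⟩ := h
  have htop : E ⊤ = ⊤ := E.map_top
  have himg : ∀ A : Set (L'.Substructure M'), E '' (E ⁻¹' A) = A := fun A =>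
    Set.image_preimage_eq A E.surjective
  refine ⟨⟨E '' A, ?_⟩, ?_, ?_⟩
  · rw [← htop]
    exact (basisOf_iso E hstr).2 hA
  · intro S T hS hT hST A hA
    obtain ⟨S, rfl⟩ := E.surjective S
    obtain ⟨T, rfl⟩ := E.surjective T
    rw [← himg A] at hA
    obtain ⟨B, h4, h5⟩ := h2 S T ((hstr S).1 hS) ((hstr T).1 hT) (E.le_iff_le.1 hST) _
      ((freeIn_iso E hstr).1 hA)
    refine ⟨E '' B, ?_, (basisOf_iso E hstr).2 h5⟩
    rw [← himg A]
    exact Set.image_mono h4
  · intro A B hA hB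
    rw [← himg A, ← htop] at hA
    rw [← himg B, ← htop] at hB
    obtain ⟨σ, h4, h5⟩ := h3 _ _ ((basisOf_iso E hstr).1 hA) ((basisOf_iso E hstr).1 hB)
    obtain ⟨σ', h6, h7⟩ := haut σ h4
    refine ⟨σ', h6, fun T hT => ?_⟩
    obtain ⟨T, rfl⟩ := E.surjective T
    rw [h7]
    exact h5 T hT

end Vale.Agent.P307.Ew
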